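import Vale.Agent.P057PD.Lab
import Vale.Agent.P057DR.Drop
import Vale.Agent.P057NA.Nar

/-!
The system of five blocks and its product form.
-/

set_option linter.all false

open Matrix Finset
open Vale.Agent.P267.H775 Vale.Agent.P057G Vale.Agent.P057PC Vale.Agent.P057TP Vale.Agent.P057SG
open Vale.Agent.P057ST Vale.Agent.P057S1
open Vale.Agent.P057EN (pr_pure qq_bk qq_add2 ort_lv)
open Vale.Agent.P057GH (pr_congr pd_Gam)
open Vale.Agent.P057DR (gl3_congr ch_sub)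

namespace Vale.Agent.P057PD

noncomputable section

variable {T : Tow} {C U R K : Type} [Fintype U] [DecidableEq U] {cl : U → C} {m s : ℕ} {N : ℝ}

/-- vertices, merged vertex, special vertex, and twice the other labels -/
abbrev L5 (T : Tow) (cl : U → C) (m : ℕ) : Type :=
  (PW T cl m ⊕ (LS T cl m ⊕ LS T cl m)) ⊕ (NP T cl m ⊕ NP T cl m)

def c5 (w : PW T cl m → R) (x y : LS T cl m → R) (u e : NP T cl m → R) : L5 T cl m → R :=
  Sum.elim (Sum.elim w (Sum.elim x y)) (Sum.elim u e)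

/-- the view without the new vertex -/
def z2 (z : L5 T cl m → R) : Lb T cl Unit m → R :=
  gl3 (fun l => z (.inl (.inl l))) (fun l => z (.inl (.inr (.inr l)))) fun l => z (.inr (.inl l))

/-- the view through the new vertex -/
def zd [Zero R] (z : L5 T cl m → R) : Lb T cl Unit m → R :=
  gl3 0 (fun l => z (.inl (.inr (.inl l)))) fun l => z (.inr (.inr l))

def c2 (a b : Lb T cl Unit m → R) : L5 T cl m → R :=
  c5 (rs _ a) (rs _ b) (rs _ a) (rs _ a) (rs _ b)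

theorem c5_eq (z : L5 T cl m → R) : c5 (fun l => z (.inl (.inl l)))
    (fun l => z (.inl (.inr (.inl l)))) (fun l => z (.inl (.inr (.inr l))))
    (fun l => z (.inr (.inl l))) (fun l => z (.inr (.inr l))) = z := by
  funext j
  rcases j with (j | j | j) | j | j <;> rfl

theorem c2_eq [Zero R] (z : L5 T cl m → R) : c2 (z2 z) (zd z) = z := by
  funext j
  rcases j with (j | j | j) | j | j
  all_goals simp only [c2, c5, rs, z2, zd, Sum.elim_inl, Sum.elim_inr, gl3_pu, gl3_li, gl3_no]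

theorem c2_add [Add R] (a b a' b' : Lb T cl Unit m → R) :
    c2 (a + a') (b + b') = c2 a b + c2 a' b' := by
  funext j
  rcases j with (j | j | j) | j | j <;> rfl

theorem c2_congr {a b a' b' : Lb T cl Unit m → R} {j : L5 T cl m}
    (ha : a (c2 id id j) = a' (c2 id id j)) (hb : b (c2 id id j) = b' (c2 id id j)) :
    c2 a b j = c2 a' b' j := by
  rcases j with (j | j | j) | j | j
  exacts [ha, hb, ha, ha, hb]

theorem zd_pu [Zero R] (z : L5 T cl m → R) (l : Lb T cl Unit m) (h : Pu l) : zd z l = 0 :=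
  gl3_pu _ _ _ ⟨l, h⟩

theorem toR_z2 (z : L5 T cl m → ℤ) : toR (z2 z) = z2 (toR z) := P057DR.toR_gl3 _ _ _

theorem toR_zd (z : L5 T cl m → ℤ) : toR (zd z) = zd (toR z) :=
  (P057DR.toR_gl3 _ _ _).trans (congrArg (gl3 · _ _) (funext fun _ => Int.cast_zero))

/-- the place of a label with the new vertex -/
def em (r : K → Lb T cl Unit m) (P : K → Prop) [DecidablePred P] (k : K) : L5 T cl m :=
  if P k then gl3 (fun l => .inl (.inl l)) (fun l => .inl (.inr (.inl l))) (fun l => .inr (.inr l))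
    (r k) else z2 id (r k)

theorem c2_em {r : K → Lb T cl Unit m} {P : K → Prop} [DecidablePred P]
    (h : ∀ k, P k → ¬ Pu (r k)) (a b : Lb T cl Unit m → R) (k : K) :
    c2 a b (em r P k) = if P k then b (r k) else a (r k) := by
  unfold em z2 gl3
  split_ifs with h1 h2 h3
  · exact absurd h2 (h k h1)
  all_goals rfl

/-- the Gram matrix of the five blocks -/
def HH (T : Tow) (cl : U → C) (m : ℕ) (β : ℝ) : Matrix (L5 T cl m) (L5 T cl m) ℝ :=
  fromBlocks (fromBlocks (bk (Gam T cl Unit m) Pu) 0 0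
    (fromBlocks (β • bk (Gam T cl Unit m) Li) 0 0 (β • bk (Gam T cl Unit m) Li))) 0 0
    ((fromBlocks 1 0 1 1)ᵀ * fromBlocks (bk (Gam T cl Unit m) No) 0 0 (bk (Gam T cl Unit m) No) *
      fromBlocks 1 0 1 1)

theorem sh_vec {L : Type} [Fintype L] [DecidableEq L] (u e : L → ℝ) :
    (fromBlocks 1 0 1 1 : Matrix (L ⊕ L) (L ⊕ L) ℝ) *ᵥ Sum.elim u e = Sum.elim u (u + e) := by
  simp [fromBlocks_mulVec]

theorem sh_det {L : Type} [Fintype L] [DecidableEq L] :
    (fromBlocks 1 0 1 1 : Matrix (L ⊕ L) (L ⊕ L) ℝ).det = 1 := by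
  rw [det_fromBlocks_zero₁₂, det_one, one_mul]

variable {β : ℝ}

theorem pd_HH (hT : T.Ok s N) (hβ : 0 < β) : (HH T cl m β).PosDef := by
  have hG := posDef_bk (pd_Gam hT.pd cl Unit m)
  refine posDef_blocks (posDef_blocks (hG _) (posDef_blocks ((hG _).smul hβ) ((hG _).smul hβ)))
    (posDef_conj (posDef_blocks (hG _) (hG _)) _ (mulVec_injective_iff_isUnit.2 ?_))
  rw [isUnit_iff_isUnit_det, sh_det]; exact isUnit_one

theorem ng_HH (hT : T.Ok s N) (hβ : 0 < β) (w : PW T cl m → ℝ) (x y : LS T cl m → ℝ)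
    (u e : NP T cl m → ℝ) : ng (HH T cl m β) (c5 w x y u e) = ng (bk (Gam T cl Unit m) Pu) w *
      (ng (β • bk (Gam T cl Unit m) Li) x * ng (β • bk (Gam T cl Unit m) Li) y) *
      (ng (bk (Gam T cl Unit m) No) u * ng (bk (Gam T cl Unit m) No) (u + e)) := by
  have hG := posDef_bk (pd_Gam hT.pd cl Unit m)
  rw [HH, ng_blocks (posDef_blocks (hG _) (posDef_blocks ((hG _).smul hβ) ((hG _).smul hβ))),
    ng_blocks (hG _), ng_blocks ((hG _).smul hβ), ng_conj sh_det, c5, Sum.elim_comp_inr, sh_vec,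
    ng_blocks (hG _)]
  rfl

theorem qq_gl3 (hT : T.Ok s N) (w : PW T cl m → ℝ) (y : LS T cl m → ℝ) (u : NP T cl m → ℝ) :
    qq (Gam T cl Unit m) (gl3 w y u) ≤ 2 * qq (bk (Gam T cl Unit m) Pu) w +
      2 * qq (bk (Gam T cl Unit m) Li) y + qq (bk (Gam T cl Unit m) No) u := by
  have hG := pd_Gam hT.pd cl Unit m
  have h1 := qq_split hG.1 (P := No) (ort_lv hT fun l l' a b c d e => d (by
    unfold Lb.Pure at e ⊢; rwa [a, b, c])) (gl3 w y u)
  have h2 := qq_bk (Gam T cl Unit m) (fun l => ¬ No l) (v := gl3 w y 0)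
    fun l h => gl3_no _ _ _ ⟨l, not_not.1 h⟩
  have h3 := qq_bk (Gam T cl Unit m) Pu (v := gl3 w 0 0) fun l h => by
    rw [gl3, dif_neg h]; split_ifs <;> rfl
  have h4 := qq_bk (Gam T cl Unit m) Li (v := gl3 0 y 0) fun l h => by
    unfold gl3
    split_ifs with a b
    exacts [rfl, absurd ⟨b, a⟩ h, rfl]
  have h5 := qq_add2 hG.posSemidef (gl3 w 0 0) (gl3 0 y 0)
  rw [← gl3_add, add_zero, zero_add, add_zero] at h5
  rw [show rs No (gl3 w y u) = u from funext (gl3_no _ _ _),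
    show rs (fun l => ¬ No l) (gl3 w y u) = rs _ (gl3 w y 0) from funext fun l =>
      gl3_congr (fun _ => rfl) (fun _ => rfl) fun h => absurd h l.2] at h1
  rw [show rs Pu (gl3 w 0 0) = w from funext (gl3_pu _ _ _)] at h3
  rw [show rs Li (gl3 0 y 0) = y from funext (gl3_li _ _ _)] at h4
  linarith

theorem qq_HH (hT : T.Ok s N) (hβ : 1 ≤ β) (v : L5 T cl m → ℝ) :
    qq (Gam T cl Unit m) (z2 v) + qq (Gam T cl Unit m) (zd v) ≤ 4 * qq (HH T cl m β) v := by
  rw [← c5_eq v]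
  generalize (fun l => v (.inl (.inl l))) = w, (fun l => v (.inl (.inr (.inl l)))) = x,
    (fun l => v (.inl (.inr (.inr l)))) = y, (fun l => v (.inr (.inl l))) = u,
    (fun l => v (.inr (.inr l))) = e
  have hG := fun P => (posDef_bk (pd_Gam hT.pd cl Unit m) P).posSemidef
  have h1 := qq_gl3 hT w y u
  have h2 := qq_gl3 hT 0 x e
  have h3 := qq_add2 (hG No) (u + e) (-u)
  rw [add_neg_cancel_comm, qq_neg] at h3
  rw [qq_zero] at h2
  rw [HH, qq_blocks, qq_blocks, qq_blocks, qq_conj, qq_smul_mat, qq_smul_mat, c5,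
    Sum.elim_comp_inr, sh_vec, qq_blocks]
  simp only [Sum.elim_comp_inl, Sum.elim_comp_inr]
  change qq _ (gl3 w y u) + qq _ (gl3 0 x e) ≤ _
  nlinarith [qq_nonneg (hG Pu) w, qq_nonneg (hG Li) x, qq_nonneg (hG Li) y, qq_nonneg (hG No) u,
    qq_nonneg (hG No) (u + e)]

/-- the centres -/
def pp (Zs Zy : Sys T U Unit) (z : L5 T cl m → ℤ) : L5 T cl m → ℝ :=
  c2 (Zy.pr cl m (toR (z2 z))) (Zs.pr cl m (toR (z2 z + zd z)) - Zy.pr cl m (toR (z2 z)))

variable {Zs Zy : Sys T U Unit}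

theorem tri_pp (hT : T.Ok s N) (hs : Zs.Ok) (hy : Zy.Ok) :
    Tri (fun j : L5 T cl m => T.lv (c2 id id j).cd) (pp Zs Zy) := fun j z z' h => by
  have h1 : ∀ l : Lb T cl Unit m, T.lv l.cd < T.lv (c2 id id j).cd →
      z2 z l = z2 z' l ∧ zd z l = zd z' l := fun l k =>
    ⟨gl3_congr (fun _ => h _ k) (fun _ => h _ k) fun _ => h _ k,
      gl3_congr (fun _ => rfl) (fun _ => h _ k) fun _ => h _ k⟩
  have h2 : Zy.pr cl m (toR (z2 z)) (c2 id id j) = Zy.pr cl m (toR (z2 z')) (c2 id id j) :=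
    pr_congr hT hy fun l _ _ k => congrArg Int.cast (h1 l k).1
  refine c2_congr h2 ?_
  rw [Pi.sub_apply, Pi.sub_apply, h2, pr_congr hT hs fun l _ _ k => ?_]
  rw [toR_apply, toR_apply, Pi.add_apply, Pi.add_apply, (h1 l k).1, (h1 l k).2]

theorem pp_sh (Zs Zy : Sys T U Unit) (c : L5 T cl m → ℝ) (z : L5 T cl m → ℤ) :
    pp Zs Zy z + c = pp (P057NA.sh Zs (z2 c + zd c)) (P057NA.sh Zy (z2 c)) z := by
  conv_lhs => rw [← c2_eq c, pp, ← c2_add]
  rw [pp]
  congr 1 <;> funext l <;> simp only [Pi.add_apply, Pi.sub_apply, P057NA.pr_sh]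
  ring

theorem pr_li (hZ : Zs.Ok) (w : PW T cl m → ℤ) (y : LS T cl m → ℤ) (u : NP T cl m → ℤ)
    (l : LS T cl m) : Zs.pr cl m (toR (gl3 w y u)) l = cL Zs w (toR y) l := by
  rw [toR_gl3]
  exact pr_pure hZ (fun k h => gl3_congr (fun _ => rfl) (fun _ => rfl) fun e => absurd h e) l.2.1

theorem ng_pp (hT : T.Ok s N) (hβ : 0 < β) (h : Pair cl m Zs Zy) (w : PW T cl m → ℤ)
    (x y : LS T cl m → ℤ) (u v : NP T cl m → ℤ) :
    z2 (c5 w x y u (v - u)) + zd (c5 w x y u (v - u)) = gl3 w (x + y) v ∧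
    ng (HH T cl m β) (toR (c5 w x y u (v - u)) - pp Zs Zy (c5 w x y u (v - u))) =
      wP Zs w * (wX Zs Zy β w x * wY Zy β w y) * (wN Zy w y u * wN Zs w (x + y) v) := by
  have e : z2 (c5 w x y u (v - u)) + zd (c5 w x y u (v - u)) = gl3 w (x + y) v := by
    change gl3 w y u + gl3 0 x (v - u) = _
    rw [← gl3_add, add_zero, add_comm y, add_sub_cancel]
  refine ⟨e, ?_⟩
  rw [← c5_eq (_ - _), ng_HH hT hβ, h.wP, pp, e]
  have e2 : toR (x + y) = toR y + toR x := funext fun l => by simp [toR_apply, add_comm]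
  unfold wP wX wY wN
  congr 3
  · funext l
    exact congrArg ((w l : ℝ) - ·) (pr_congr hT h.2.1 fun k _ a _ => by
      have a : Pu k := a.elim id fun b => b.trans l.2
      exact (congrArg Int.cast (gl3_pu _ _ _ ⟨k, a⟩)).trans (gl3_pu (toR w) 0 0 ⟨k, a⟩).symm)
  · rw [← h.diff hT w (toR y), ← e2]
    congr 1
    funext l
    exact congrArg ((x l : ℝ) - ·) (congrArg₂ (· - ·) (pr_li h.1 w _ v l) (pr_li h.2.1 w y u l))
  · congr 1
    funext l
    exact congrArg ((y l : ℝ) - ·) (pr_li h.2.1 w y u l)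
  · funext l
    change (u l : ℝ) - _ + (((v l - u l : ℤ) : ℝ) - (_ - _)) = _
    simp only [rs, c2, c5, Sum.elim_inr, Sum.elim_inl]
    push_cast
    ring

/-- the product form -/
theorem er_pp (hT : T.Ok s N) (hβ : 0 < β) (h : Pair cl m Zs Zy)
    (a : (PW T cl m → ℤ) → (LS T cl m → ℤ) → ℝ) (b : (Lb T cl Unit m → ℤ) → ℝ)
    {F : (Lb T cl Unit m → ℤ) → ℝ} {g : (L5 T cl m → ℤ) → ℝ} {B B' l : ℝ} (hF : ∀ z, |F z| ≤ B)
    (hB : ∀ z, |g z| ≤ B') (hg : ∀ w x y u e, g (c5 w x y u e) =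
      a w x * b (gl3 w y u) * (F (z2 (c5 w x y u e) + zd (c5 w x y u e)) - l)) :
    Er (HH T cl m β) (pp Zs Zy) g = ∑' w, wP Zs w * ∑' q : (LS T cl m → ℤ) × (LS T cl m → ℤ),
      wX Zs Zy β w q.1 * a w q.1 * (wY Zy β w q.2 * ch Zy b w q.2 *
        (ch Zs F w (q.1 + q.2) - l * ch Zs (fun _ => 1) w (q.1 + q.2))) := by
  let E : (PW T cl m → ℤ) × ((LS T cl m → ℤ) × (LS T cl m → ℤ)) × (NP T cl m → ℤ) ×
      (NP T cl m → ℤ) ≃ (L5 T cl m → ℤ) :=
    ⟨fun o => c5 o.1 o.2.1.1 o.2.1.2 o.2.2.1 (o.2.2.2 - o.2.2.1),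
      fun z => (fun l => z (.inl (.inl l)), (fun l => z (.inl (.inr (.inl l))),
        fun l => z (.inl (.inr (.inr l)))), fun l => z (.inr (.inl l)),
        (fun l => z (.inr (.inl l))) + fun l => z (.inr (.inr l))),
      fun ⟨w, ⟨x, y⟩, u, v⟩ => congrArg (fun t => (w, (x, y), u, t)) (add_sub_cancel u v),
      fun z => by simp only [add_sub_cancel_left, c5_eq]⟩
  have h1 := E.summable_iff.2 (summable_er (tri_pp hT h.1 h.2.1) (pd_HH hT hβ) hB)
  rw [Er, ← E.tsum_eq]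
  refine h1.tsum_prod.trans (tsum_congr fun w => ?_)
  rw [← tsum_mul_left]
  refine (h1.prod_factor w).tsum_prod.trans (tsum_congr fun q => ?_)
  refine ((h1.prod_factor w).prod_factor q).tsum_prod.trans ?_
  have k : ∀ (A B D : ℝ) (f g : (NP T cl m → ℤ) → ℝ), A * (B * (D * (∑' u, f u) * ∑' v, g v)) =
      ∑' u, ∑' v, A * B * D * f u * g v := fun A B D f g => by
    simp only [tsum_mul_left, tsum_mul_right]; ring
  rw [← ch_sub hT h.1 hF, ch, ch, k]
  refine tsum_congr fun u => tsum_congr fun v => ?_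
  obtain ⟨k1, k2⟩ := ng_pp hT hβ h w q.1 q.2 u v
  change ng _ (toR (c5 _ _ _ _ _) - pp Zs Zy (c5 _ _ _ _ _)) * g (c5 _ _ _ _ _) = _
  rw [k2, hg, k1]
  ring

end

end Vale.Agent.P057PD
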