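import Vale.Agent.P057S1.View
import Vale.Agent.P057FC.Trx
import Vale.Agent.P057EN.Sta

/-!
A configuration with one further vertex in terms of its two views.
-/

set_option linter.all false

open Matrix Finset
open Vale.Agent.P267.H775 Vale.Agent.P057G Vale.Agent.P057PC Vale.Agent.P057TP Vale.Agent.P057SG
open Vale.Agent.P057ST Vale.Agent.P057S1 Vale.Agent.P057EN
open Vale.Agent.P057GH (pr_congr pd_Gam)

namespace Vale.Agent.P057PD

noncomputable section

/-- transfer along an injection of the index types -/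
theorem trx_sel {L K : Type} [Fintype L] [DecidableEq L] [Fintype K] [DecidableEq K] {lv : L → ℕ}
    {p : (L → ℤ) → L → ℝ} (hp : Tri lv p) {H : Matrix L L ℝ} (hH : H.PosDef) {e : K → L}
    (he : e.Injective) {p' : (K → ℤ) → K → ℝ} (hp' : ∀ z, p' (z ∘ e) = p z ∘ e)
    {A : Matrix K K ℝ} (hA : A.PosDef) (hq : ∀ v, 4 * qq A (v ∘ e) ≤ qq H v) {f : (K → ℤ) → ℝ}
    {B σ : ℝ} (hf : ∀ y, |f y| ≤ B) (h0 : 0 < σ) (hσ : σ ≤ Er A p' f) :
    ∃ c, σ / 2 ≤ Er H (fun z => p z + c) fun z => f (z ∘ e) := by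
  let S : Matrix K L ℤ := Matrix.of fun k l => if l = e k then 1 else 0
  have h1 : ∀ z : L → ℤ, S *ᵥ z = z ∘ e := fun z => funext fun k => by simp [S, mulVec, dotProduct]
  have h2 : ∀ z : L → ℝ, mR S *ᵥ z = z ∘ e := fun z => funext fun k => by
    simp [S, mR, mulVec, dotProduct]
  have h3 : toR (0 : K → ℤ) = 0 := funext fun _ => Int.cast_zero
  have := P057FC.trx L K lv p ((1 / 2 : ℝ) • H) e S 0 p' A f B σ hp (hH.smul (by norm_num))
    (fun k k' => by simp [S, one_apply, he.eq_iff, eq_comm])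
    (fun k l h => by rw [(ite_ne_right_iff.1 h).1])
    (fun z => by rw [zero_add, h1, h2, h3, zero_add, hp']) hA
    (fun v => by rw [h2, qq_smul_mat]; linarith [hq v]) hf h0 hσ
  simpa only [zero_add, h1, smul_smul, show (2 : ℝ) * (1 / 2) = 1 by norm_num, one_smul] using this

variable {T : Tow} {C C₁ U R : Type} [Fintype U] [DecidableEq U] {cl : U → C}
  {cl₁ : Option U → C₁} {m s : ℕ} {N : ℝ}

theorem Gam_unit (hT : T.Ok s N) (l l' : Lb T cl Unit m) :
    Gam T cl Unit m l l' = if l.fc = l'.fc then T.G l.cd l'.cd else 0 := by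
  rw [Gam, of_apply]
  split_ifs with h1 h2 h2
  · rfl
  · exact absurd h1.1 h2
  · refine (hT.blk _ _ fun e => h1 ⟨h2, ?_⟩).symm
    rcases bs_unit l with a | a <;> rcases bs_unit l' with b | b
    · rw [a, b]
    · have := l.card_eq a; have := l'.card_lt b; rw [h2] at *; omega
    · have := l.card_lt a; have := l'.card_eq b; rw [h2] at *; omega
    · rw [a, b]
  · rfl

theorem fc_in {A : Finset (Option U)} (h : none ∈ A) :
    insert none ((eraseNone A).image some) = A := by rw [image_some_eraseNone, insert_erase h]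

theorem fc_out {A : Finset (Option U)} (h : none ∉ A) : (eraseNone A).image some = A := by
  rw [image_some_eraseNone, erase_eq_of_notMem h]

theorem jn_pure' [AddCommMonoid R] {y y' x x' : Lb T cl Unit m → R} (hy : ∀ l, Pu l → y l = y' l)
    (hx : ∀ l, Li l → x l = x' l) {k : Lb T cl₁ Unit m} (hk : k.bs = none) :
    jn cl₁ y x k = jn cl₁ y' x' k := by
  have h1 := k.card_eq hk
  unfold jn
  split_ifs with e
  · refine tot_congr fun l a b => hx l ?_
    have := card_eraseNone_of_mem e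
    have := card_pos.2 ⟨_, e⟩
    have h2 : l.fc.card + 1 = T.lv l.cd := by rw [a, b]; omega
    exact ⟨Or.inr h2, fun k => by have := l.card_eq k; omega⟩
  · refine tot_congr fun l a b => hy l (by_contra fun k => ?_)
    have := card_np k
    rw [a, b, card_eraseNone_of_not_mem e] at this
    omega

theorem vx_sub [AddCommMonoid R] (y : Lb T cl Unit m → R) {x : Lb T cl Unit m → R}
    (hx : ∀ l, Pu l → x l = 0) {A : Finset U}
    (hA : Set.InjOn cl₁ (insert none (A.image some) : Finset (Option U))) {l : Lb T cl Unit m}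
    (h : l.fc ⊆ A) : vx cl (jn cl₁ y x) l = x l := by
  by_cases k : Pu l
  · rw [vx_pu _ k, hx l k]
  · exact vx_jn y x k (hA.mono (coe_subset.2 (insert_subset_insert _ (image_subset_image h))))

/-- the label without the new vertex -/
structure Rl (r : Lb T cl₁ Unit m → Lb T cl Unit m) : Prop where
  cd : ∀ k, (r k).cd = k.cd
  fc : ∀ k, (r k).fc = eraseNone k.fc

variable {r : Lb T cl₁ Unit m → Lb T cl Unit m}

theorem Rl.jn [AddCommMonoid R] (h : Rl r) (y x : Lb T cl Unit m → R) (k : Lb T cl₁ Unit m) :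
    jn cl₁ y x k = if none ∈ k.fc then x (r k) else y (r k) := by
  rw [P057S1.jn, ← h.cd, ← h.fc, tot_lab _ (bs_unit _), tot_lab _ (bs_unit _)]

theorem Rl.np (h : Rl r) {k : Lb T cl₁ Unit m} (e : none ∈ k.fc) : ¬ Pu (r k) := fun a => by
  have h1 := (r k).card_eq a
  have := card_eraseNone_of_mem e
  have := card_pos.2 ⟨_, e⟩
  have := k.card_le
  rw [h.cd, h.fc] at h1
  omega

theorem Rl.sur (h : Rl r) (l : Lb T cl Unit m) {A : Finset (Option U)} (h1 : Set.InjOn cl₁ A)
    (h2 : A.card ≤ T.lv l.cd) (h3 : eraseNone A = l.fc) : ∃ k, k.fc = A ∧ r k = l := by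
  obtain ⟨k, a, b, -⟩ := exists_lab (T := T) (cl := cl₁) (m := m) () (a := l.cd) l.2.1 h1 h2
  exact ⟨k, b, lab_eq (bs_unit _) (bs_unit _) ((h.cd k).trans a) (by rw [h.fc, b, h3])⟩

theorem er_inj {A B : Finset (Option U)} (e : none ∈ A ↔ none ∈ B) :
    eraseNone A = eraseNone B ↔ A = B := by
  refine ⟨fun h => ?_, fun h => by rw [h]⟩
  ext (_ | u)
  · exact e
  · rw [← mem_eraseNone, h, mem_eraseNone]

/-- the position of a label in the two views -/
def ix (r : Lb T cl₁ Unit m → Lb T cl Unit m) (k : Lb T cl₁ Unit m) :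
    Lb T cl Unit m ⊕ Lb T cl Unit m := if none ∈ k.fc then Sum.inr (r k) else Sum.inl (r k)

theorem Rl.inj (h : Rl r) : (ix r).Injective := fun k k' e => by
  have : (none ∈ k.fc ↔ none ∈ k'.fc) ∧ r k = r k' := by
    unfold ix at e
    split_ifs at e with a b b <;> simp_all
  exact lab_eq (bs_unit _) (bs_unit _) (by rw [← h.cd, ← h.cd, this.2])
    ((er_inj this.1).1 (by rw [← h.fc, ← h.fc, this.2]))

variable (hc : ∀ u u', cl₁ (some u) = cl₁ (some u') ↔ cl u = cl u')
include hc

theorem inj_some (l : Lb T cl Unit m) : Set.InjOn cl₁ (l.fc.image some : Finset (Option U)) :=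
  (P057GH.lift hc id l).2.2.1

theorem exists_rl : ∃ r : Lb T cl₁ Unit m → Lb T cl Unit m, Rl r := by
  have : ∀ k : Lb T cl₁ Unit m, ∃ l : Lb T cl Unit m, l.cd = k.cd ∧ l.fc = eraseNone k.fc :=
    fun k => by
      obtain ⟨l, a, b, -⟩ := exists_lab (T := T) (cl := cl) (m := m) () (a := k.cd)
        (A := eraseNone k.fc) k.2.1 (fun u hu v hv e => Option.some_injective _
          (k.2.2.1 (mem_eraseNone.1 hu) (mem_eraseNone.1 hv) ((hc _ _).2 e)))
        ((card_eraseNone_le _).trans k.card_le)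
      exact ⟨l, a, b⟩
  choose r h1 h2 using this
  exact ⟨r, h1, h2⟩

theorem vy_jn2 [AddCommMonoid R] (y x : Lb T cl Unit m → R) : vy cl (jn cl₁ y x) = y :=
  funext fun l => vy_jn y x (inj_some hc l)

/-- the centres in terms of the two views -/
theorem pr_jn (hT : T.Ok s N) {Z : Sys T (Option U) Unit} (hZ : Z.Ok) (y : Lb T cl Unit m → ℝ)
    {x : Lb T cl Unit m → ℝ} (hx : ∀ l, Pu l → x l = 0) : Z.pr cl₁ m (jn cl₁ y x) =
      jn cl₁ ((dy Z).pr cl m y) ((mg Z).pr cl m (y + x) - (dy Z).pr cl m y) := by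
  obtain ⟨r, h⟩ := exists_rl (T := T) (m := m) hc
  funext k
  have h1 := pr_dy hZ (jn cl₁ y x) (inj_some hc (r k))
  rw [vy_jn2 hc] at h1
  rw [h.jn]
  split_ifs with e
  · have h0 : Set.InjOn cl₁ (insert none ((r k).fc.image some) : Finset (Option U)) := by
      rw [h.fc, fc_in e]; exact k.2.2.1
    have h2 := pr_mg hZ (jn cl₁ y x) h0
    rw [vy_jn2 hc, ← h1, vx, h.cd, h.fc, fc_in e, tot_lab _ (bs_unit k),
      pr_congr hT (ok_mg hZ) (x' := y + x) fun l a _ _ => by
        rw [Pi.add_apply, Pi.add_apply, vx_sub y hx h0 a]] at h2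
    rw [Pi.sub_apply, h2, add_sub_cancel_left]
  · rw [h1, vy, h.cd, h.fc, fc_out e, tot_lab _ (bs_unit k)]

theorem qq_jn (hT : T.Ok s N) (y x : Lb T cl Unit m → ℝ) :
    qq (Gam T cl₁ Unit m) (jn cl₁ y x) ≤ qq (Gam T cl Unit m) y + qq (Gam T cl Unit m) x := by
  obtain ⟨r, h⟩ := exists_rl (T := T) (m := m) hc
  have hG := pd_Gam hT.pd cl Unit m
  have := qq_emb (posDef_blocks hG hG) (H := Gam T cl₁ Unit m) h.inj (fun k k' => ?_)
    (fun i j hi hj => ?_) (Sum.elim y x)
  · rw [qq_blocks] at this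
    refine le_trans (le_of_eq (congrArg _ (funext fun k => ?_))) this
    rw [h.jn, Function.comp, ix]
    split_ifs <;> rfl
  · rw [Gam_unit hT, ix, ix]
    by_cases a : none ∈ k.fc <;> by_cases b : none ∈ k'.fc
    · rw [if_pos a, if_pos b, fromBlocks_apply₂₂, Gam_unit hT, h.cd, h.cd, h.fc, h.fc]
      exact if_congr (er_inj (iff_of_true a b)).symm rfl rfl
    · rw [if_pos a, if_neg b, if_neg fun e : k.fc = k'.fc => b (e ▸ a)]; rfl
    · rw [if_neg a, if_pos b, if_neg fun e : k.fc = k'.fc => a (e ▸ b)]; rfl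
    · rw [if_neg a, if_neg b, fromBlocks_apply₁₁, Gam_unit hT, h.cd, h.cd, h.fc, h.fc]
      exact if_congr (er_inj (iff_of_false a b)).symm rfl rfl
  · obtain ⟨k, rfl⟩ := hi
    rcases j with l | l
    · obtain ⟨k', a, b⟩ := h.sur l (inj_some hc l) (card_image_le.trans l.card_le) (er_img _)
      exact absurd ⟨k', by rw [ix, if_neg (by simp [a]), b]⟩ hj
    · rw [ix]
      split_ifs with e
      · refine by_contra fun g => hj ?_
        obtain ⟨g1, g2⟩ := P057DP.Gam_ne g
        have g3 : ¬ Pu l := fun a => h.np e (g2.trans a)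
        obtain ⟨k', a, b⟩ := h.sur l k.2.2.1 (A := k.fc) (by
          have := card_np g3
          have := card_eraseNone_of_mem e
          have := card_pos.2 ⟨_, e⟩
          rw [← g1, h.fc] at *
          omega) (by rw [← g1, h.fc])
        exact ⟨k', by rw [ix, if_pos (a ▸ e), b]⟩
      · rfl

end

end Vale.Agent.P057PD
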