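import Vale.Agent.P057PD.Blk

/-!
Insertion of the missing labels, shear and mixture.
-/

set_option linter.all false

open Matrix Finset
open Vale.Agent.P267.H775 Vale.Agent.P057G Vale.Agent.P057PC Vale.Agent.P057TP Vale.Agent.P057SG
open Vale.Agent.P057ST Vale.Agent.P057S1
open Vale.Agent.P057GH (pr_congr pd_Gam F_congr F_bdd F_nonneg mem_cells)
open Vale.Agent.P057NA (sh ok_sh pr_sh F_sh F_nar ok_nar Gam_nar)

namespace Vale.Agent.P057PD

noncomputable section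

variable {T : Tow} {C C₁ U : Type} [Fintype U] [DecidableEq U] {cl : U → C}
  {cl₁ : Option U → C₁} {m s : ℕ} {N β l X B : ℝ}

theorem prod_gen (hc : ∀ u u', cl₁ (some u) = cl₁ (some u') ↔ cl u = cl u') (hT : T.Ok s N)
    {Z : Sys T (Option U) Unit} (hZ : Z.Ok) (hβ : 1 ≤ β)
    {A : Matrix (Lb T cl₁ Unit m) (Lb T cl₁ Unit m) ℝ} (hA : A.PosDef)
    (hq : ∀ v, 16 * qq A v ≤ qq (Gam T cl₁ Unit m) v) {a b Φ : (Lb T cl₁ Unit m → ℤ) → ℝ}
    {F : (Lb T cl Unit m → ℤ) → ℝ} (ha : ∀ z z', (∀ k, k.bs = none → z k = z' k) → a z = a z')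
    (hb : ∀ z z', (∀ k, none ∉ k.fc → z k = z' k) → b z = b z')
    (a0 : ∀ z, 0 ≤ a z ∧ a z ≤ Real.exp X) (b0 : ∀ z, 0 ≤ b z ∧ b z ≤ Real.exp X)
    (hΦ : ∀ z, |Φ z| ≤ B) (hF : ∀ y x, (∀ k, Pu k → x k = 0) → Φ (jn cl₁ y x) = F (y + x))
    (h : Real.exp (-X) ≤ Er A (fun z => Z.pr cl₁ m (toR z)) fun z => a z * b z * (Φ z - l)) :
    ∃ cs cy : Lb T cl Unit m → ℝ, Pair cl m (sh (mg Z) cs) (sh (dy Z) cy) ∧
      PS cl m (sh (mg Z) cs) (sh (dy Z) cy) F β l (X + 1) := by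
  obtain ⟨r, hr⟩ := exists_rl (T := T) (m := m) hc
  have β0 : 0 < β := one_pos.trans_le hβ
  set e := em r fun k => none ∈ k.fc
  have e1 : ∀ {R : Type} [AddCommMonoid R] (y x : Lb T cl Unit m → R),
      c2 y x ∘ e = jn cl₁ y x := fun y x => funext fun k =>
    (c2_em (fun _ => hr.np) y x k).trans (hr.jn y x k).symm
  have e2 : ∀ {R : Type} [AddCommMonoid R] (z : L5 T cl m → R),
      z ∘ e = jn cl₁ (z2 z) (zd z) := fun z => by rw [← e1, c2_eq]
  have hg : ∀ z, |a z * b z * (Φ z - l)| ≤ Real.exp X * Real.exp X * (B + |l|) := fun z => by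
    rw [abs_mul, abs_mul, abs_of_nonneg (a0 z).1, abs_of_nonneg (b0 z).1]
    exact mul_le_mul (mul_le_mul (a0 z).2 (b0 z).2 (b0 z).1 (Real.exp_pos _).le)
      ((abs_sub _ _).trans (add_le_add (hΦ z) le_rfl)) (abs_nonneg _) (by positivity)
  obtain ⟨c, h1⟩ := trx_sel (tri_pp hT (ok_mg hZ) (ok_dy hZ)) (pd_HH hT β0) (e := e)
    (p' := fun z => Z.pr cl₁ m (toR z))
    (fun k k' h => hr.inj ((c2_em (fun _ => hr.np) Sum.inl Sum.inr k).symm.trans
      ((congrArg _ h).trans (c2_em (fun _ => hr.np) Sum.inl Sum.inr k'))))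
    (fun z => by
      rw [pp, e1, show toR (z2 z + zd z) = toR (z2 z) + toR (zd z) from
        funext fun _ => Int.cast_add _ _, ← pr_jn hc hT hZ _ fun k hk => by
          rw [toR_apply, zd_pu z k hk, Int.cast_zero], toR_z2, toR_zd, ← e2]
      rfl) hA
    (fun v => by
      rw [e2]
      linarith [hq (jn cl₁ (z2 v) (zd v)), qq_jn hc hT (z2 v) (zd v), qq_HH hT hβ v])
    hg (Real.exp_pos _) h
  have hP : Pair cl m (sh (mg Z) (z2 c + zd c)) (sh (dy Z) (z2 c)) :=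
    ⟨ok_sh hT.pos (ok_mg hZ) _, ok_sh hT.pos (ok_dy hZ) _, Z, z2 c + zd c, z2 c, hZ,
      fun k hk => by rw [Pi.add_apply, zd_pu c k hk, add_zero],
      fun x => funext (pr_sh _ _ x), fun x => funext (pr_sh _ _ x)⟩
  have x1 := Real.exp_le_exp.2 (le_add_of_nonneg_right (a := X) zero_le_one)
  refine ⟨_, _, hP, fun w x => a (jn cl₁ (gl3 w 0 0) (gl3 0 x 0)), fun y => b (jn cl₁ y 0),
    fun w x => ⟨(a0 _).1, (a0 _).2.trans x1⟩, fun y => ⟨(b0 _).1, (b0 _).2.trans x1⟩, ?_⟩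
  refine le_trans ?_ (er_pp hT β0 hP (fun w x => a (jn cl₁ (gl3 w 0 0) (gl3 0 x 0))) _ (B := B)
    (g := fun z => a (z ∘ e) * b (z ∘ e) * (Φ (z ∘ e) - l))
    (fun z => by rw [← add_zero z, ← hF z 0 fun _ _ => rfl]; exact hΦ _)
    (fun z => hg _) fun w x y u v => ?_).le
  · rw [← funext (pp_sh (mg Z) (dy Z) c)]
    refine le_trans ?_ h1
    rw [neg_add, Real.exp_add, le_div_iff₀ two_pos, mul_assoc]
    refine mul_le_of_le_one_right (Real.exp_pos _).le ?_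
    rw [Real.exp_neg, inv_mul_le_iff₀ (Real.exp_pos _)]
    linarith [Real.add_one_le_exp 1]
  · rw [e2, hF _ _ (zd_pu _), ha (jn cl₁ (z2 (c5 w x y u v)) (zd (c5 w x y u v)))
      (jn cl₁ (gl3 w 0 0) (gl3 0 x 0)) fun k hk => jn_pure'
      (fun k hk => P057DR.gl3_congr (fun _ => rfl) (fun e => absurd hk e.2) fun e =>
        absurd (Or.inl hk) e)
      (fun k hk => P057DR.gl3_congr (fun _ => rfl) (fun _ => rfl) fun e => absurd hk.1 e) hk,
      hb _ (jn cl₁ (gl3 w y u) 0) fun k hk => by rw [jn, jn, if_neg hk, if_neg hk]; rfl]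

theorem inj_cell {n p : ℕ} {R : Type} [DecidableEq R] {c : Finset (Wv n p)}
    (h : Set.InjOn Prod.fst (c : Set (Wv n p))) : Set.InjOn (c0 : Option (Uv n p R) → _)
      (insert none ((c.image Sum.inl).image some) : Finset (Option (Uv n p R))) := by
  intro u hu v hv e
  simp only [coe_insert, coe_image, Set.mem_insert_iff, Set.mem_image, mem_coe,
    exists_exists_and_eq_and] at hu hv
  obtain rfl | ⟨u, hu, rfl⟩ := hu <;> obtain rfl | ⟨v, hv, rfl⟩ := hv <;> simp [c0, cU] at e ⊢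
  exact h hu hv e

theorem prod : PROD := by
  intro s N T n p R _ _ Z f β l X hT hZ hf hβ ⟨a, b, ha, hb, a0, b0, h⟩
  have h1 : ∀ e, 1 ≤ l16 (n + 2) e := fun e => by unfold l16; split_ifs <;> norm_num
  let Z' : Sys (T.nar (l16 (n + 2))) (Option (Uv n p R)) Unit := ⟨Z.fam, Z.off⟩
  have e : ∀ z c, Z'.F c0 (n + 2) f z c () = Z.F c0 (n + 2) f z c () := fun z c =>
    (F_sh Z' 0 f z c ()).symm.trans (F_nar Z (fun e he => if_neg he.not_gt) 0 f z c ())
  have hZ' : Z'.Ok := ⟨hZ.fam, hZ.top⟩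
  obtain ⟨M, hM⟩ := F_bdd (ok_nar hT h1) hZ' c0 (n + 2) hf
  have g : Gam (T.nar (l16 (n + 2))) (c0 : Option (Uv n p R) → _) Unit (n + 2) =
      (16 : ℝ) • Gam T c0 Unit (n + 2) := (Gam_nar T _).trans (by
    ext k k'
    exact congrArg (· * Gam T c0 Unit (n + 2) k k') (if_pos k.2.1))
  have hc : ∀ u u' : Uv n p R, c0 (some u) = c0 (some u') ↔ cU u = cU u' := fun _ _ => Iff.rfl
  obtain ⟨cs, cy, k1, k2⟩ := prod_gen hc (ok_nar hT h1) hZ' hβ (pd_Gam hT.pd c0 Unit (n + 2))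
    (fun v => ((qq_smul_mat _ _ v).symm.trans (congrArg (qq · v) g.symm)).le) (F := PG (mg Z') f)
    (Φ := fun z => ∏ c ∈ cells (Prod.fst : Wv n p → Fin n),
      Z'.F c0 (n + 2) f z (insert none ((c.image Sum.inl).image some)) ()) ha hb a0 b0
    (B := ∏ c ∈ cells (Prod.fst : Wv n p → Fin n), M) (fun z => by
      rw [abs_of_nonneg (prod_nonneg fun _ _ => F_nonneg Z' hf _ _ _)]
      exact prod_le_prod (fun _ _ => F_nonneg Z' hf _ _ _) fun _ _ => hM _ _ _)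
    (fun y x hx => prod_congr rfl fun c hc' => by
      have k := inj_cell (R := R) (mem_cells.1 hc').1
      rw [← F_mg (cl := cU) Z' f _ fun u hu v hv g => Option.some_injective _
        (k (by simpa using hu) (by simpa using hv) g), vy_jn2 hc]
      exact F_congr _ f fun l hl _ => by rw [Pi.add_apply, Pi.add_apply, vx_sub y hx k hl])
    (h.trans_eq (tsum_congr fun z => congrArg (fun t => Z.w c0 (n + 2) z * (a z * b z * (t - l)))
      (prod_congr rfl fun c _ => (e z _).symm)))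
  refine ⟨_, _, k1, ?_⟩
  rwa [show PG (sh (mg Z') cs) f = PG (mg Z') f from
    funext fun z => prod_congr rfl fun c _ => F_sh _ _ f z _ _]

end

end Vale.Agent.P057PD
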